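import Mathlib
import Vale.Agent.P309.Defs
import Vale.Agent.P309.Main
import Vale.Agent.P309.Kaczmarz

namespace Vale.Agent.Results.P309.MemorySampleTradeoff

open Vale.Agent.P309

/-- For every `C`, a learner with at most `C d²` bits reaching accuracy `ε` with probability `2/3`
needs at least `c' d log (1 / ε)` samples, for all small `ε` and all large `d`; and
`C₁ d log (d / ε)` bits with `C₁ d log (1 / ε)` samples suffice. -/
theorem result :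
    (∀ C : ℝ, 0 < C → ∃ c' > (0 : ℝ), ∃ ε₀ > (0 : ℝ), ∃ d₀ : ℕ, ∀ d ≥ d₀, ∀ ε : ℝ, 0 < ε → ε < ε₀ →
      ∀ (M T : ℕ), (M : ℝ) ≤ C * (d : ℝ) ^ 2 → ∀ L : Learner d M, L.Succeeds T ε →
        c' * d * Real.log (1 / ε) ≤ T) ∧
    (∃ C₁ > (0 : ℝ), ∀ d : ℕ, 2 ≤ d → ∀ ε : ℝ, 0 < ε → ε < 1 / 2 → ∀ M : ℕ,
      C₁ * d * Real.log (d / ε) ≤ M →
        ∃ T : ℕ, (T : ℝ) ≤ C₁ * d * Real.log (1 / ε) ∧ ∃ L : Learner d M, L.Succeeds T ε) :=
  ⟨memory_sample_tradeoff, kaczmarz_upper_bound⟩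

end Vale.Agent.Results.P309.MemorySampleTradeoff
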